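import Vale.Agent.P275MO.Props
import Vale.Agent.P275Z.Ty

/-!
P275 (helper85), block NU: the nonabelian Hodge map. Definitions and blocks.
-/

set_option linter.all false

open scoped Matrix.Norms.Operator Topology ContDiff
open Filter Set Matrix Metric
open Vale.Agent.P275NA (Fm Cy Mn db dz cn ad hk CvC CvF)
open Vale.Agent.P275GC Vale.Agent.P275MO
open Vale.Agent.P275Z (tauX)

noncomputable section

namespace Vale.Agent.P275NU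

variable {C : Type} [TopologicalSpace C] (A : At C) {n : ℕ}

/-- trace free projective `λ`-connections without pole, with determinant `l`; `λ = 0` : Higgs -/
structure Con (l : Cy A ℂ) (lam : ℂ) (g : Cy A (Mn n)) (a : Fm A (Mn n)) : Prop where
  cc : A.Cc g
  det : ∀ i j, ∀ w ∈ A.O i j, (g i j w).det = l i j w
  hol : A.Hl a
  tr : ∀ i, ∀ w ∈ ball (0 : ℂ) A.R, (a i w).trace = 0
  law : ∀ i j, ∀ w ∈ A.O i j, ∃ c : ℂ, a i w * g i j w + lam • deriv (g i j) w =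
    A.d i j w • (g i j w * a j (A.tr i j w)) + c • g i j w

/-- the equation of Hitchin -/
def PF (a h : Fm A (Mn n)) : Prop := ∀ i, ∀ w ∈ ball (0 : ℂ) A.R, tf (hk (h i) (a i) w) = 0

/-- `G` is a smooth isomorphism from `(g', db, λ dz + a')` to `(g, db + λ a*, λ d_h + a)` -/
structure Rel (lam : ℂ) (g : Cy A (Mn n)) (a h G : Fm A (Mn n)) (g' : Cy A (Mn n))
    (a' : Fm A (Mn n)) : Prop where
  sm : A.Sm ∞ G
  ne : ∀ i, ∀ w ∈ ball (0 : ℂ) A.R, (G i w).det ≠ 0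
  db : ∀ i, ∀ w ∈ ball (0 : ℂ) A.R, db (G i) w + lam • (ad (h i w) (h i w) (a i w) * G i w) = 0
  dz : ∀ i, ∀ w ∈ ball (0 : ℂ) A.R,
    lam • dz (G i) w + (lam • tf (cn (h i) w) + a i w) * G i w = G i w * a' i w
  tr : ∀ i j, ∀ w ∈ A.O i j, g i j w * G j (A.tr i j w) = G i w * g' i j w

/-- two harmonic bundles with the same connection are isomorphic -/
def INJ : Prop := ∀ (n : ℕ) (l : Cy A ℂ) (lam : ℂ) (g₁ g₂ g' : Cy A (Mn n))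
  (a₁ h₁ G₁ a₂ h₂ G₂ a' : Fm A (Mn n)), 0 < n → lam ≠ 0 → Con A l 0 g₁ a₁ → Con A l 0 g₂ a₂ →
  A.MtM ∞ g₁ h₁ → A.MtM ∞ g₂ h₂ → Rel A lam g₁ a₁ h₁ G₁ g' a' → Rel A lam g₂ a₂ h₂ G₂ g' a' →
  P275NA.Hom A g₁ a₁ g₂ a₂ fun i w => G₂ i w * (G₁ i w)⁻¹

/-- maps of harmonic bundles are parallel -/
def PAR : Prop := ∀ (n : ℕ) (l : Cy A ℂ) (g₁ g₂ : Cy A (Mn n)) (a₁ h₁ a₂ h₂ φ : Fm A (Mn n)),
  0 < n → Con A l 0 g₁ a₁ → Con A l 0 g₂ a₂ → A.MtM ∞ g₁ h₁ → A.MtM ∞ g₂ h₂ → PF A a₁ h₁ →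
  PF A a₂ h₂ → P275NA.Hom A g₁ a₁ g₂ a₂ φ → ∀ i, ∀ w ∈ ball (0 : ℂ) A.R,
    dz (φ i) w + tf (cn (h₂ i) w) * φ i w = φ i w * tf (cn (h₁ i) w) ∧
    ad (h₂ i w) (h₂ i w) (a₂ i w) * φ i w = φ i w * ad (h₁ i w) (h₁ i w) (a₁ i w)

/-- convergent connections have bounded characteristic polynomials of the Higgs fields -/
def BND : Prop := ∀ (n : ℕ) (l : Cy A ℂ) (gs gs' : ℕ → Cy A (Mn n)) (as hs Gs as' : ℕ → Fm A (Mn n))
  (g' : Cy A (Mn n)) (a' : Fm A (Mn n)), 0 < n →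
  (∀ k, Con A l 0 (gs k) (as k) ∧ A.MtM ∞ (gs k) (hs k) ∧ PF A (as k) (hs k) ∧
    Rel A 1 (gs k) (as k) (hs k) (Gs k) (gs' k) (as' k) ∧ A.Cc (gs' k) ∧ A.Hl (as' k)) →
  A.Cc g' → A.Hl a' → CvC A gs' g' → CvF A as' a' →
  ∃ M : ℝ, ∀ k i, ∀ w ∈ ball (0 : ℂ) 1, ∀ q, ‖(as k i w).charpoly.coeff q‖ ≤ M

/-- an invariant subbundle of a connection has the slope of the bundle -/
def NOI : Prop := ∀ (n : ℕ) (l : Cy A ℂ) (z : Dat C A.N n) (k : ℕ)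
  (S : Fm A (Submodule ℂ (Fin n → ℂ))), Good A l z → z.lam ≠ 0 → z.R = 0 →
  P275NA.Sub A z.g k S → InvC A z S → (n : ℝ) * P275NA.degS A z.g k S = k * A.deg l

variable {A}

/-- `y` is the class of `(g, a)` -/
def Cl {l : Cy A ℂ} (y : Mod A l (tauX n)) (r : ℝ) (h1 : 1 < r) (h2 : r ≤ A.R) (g : Cy A (Mn n))
    (a : Fm A (Mn n)) : Prop := Con (A.res r h1 h2) l y.lam g a ∧
  ∃ z : Ob A l (tauX n), z.pt = y ∧ Good (A.res r h1 h2) l z.1 ∧ z.1.g = g ∧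
    ∀ i, ∀ w ∈ off (A.res r h1 h2) z.1.x i, z.1.a i w = a i w

/-- the nonabelian Hodge relation between a Higgs bundle `y` and a `λ`-connection `y'` -/
def NuR {l : Cy A ℂ} (y y' : Mod A l (tauX n)) : Prop := y.lam = 0 ∧ y'.x = y.x ∧
  ∃ (r : ℝ) (h1 : 1 < r) (h2 : r ≤ A.R) (g g' : Cy A (Mn n)) (a h G a' : Fm A (Mn n)),
    Cl y r h1 h2 g a ∧ Cl y' r h1 h2 g' a' ∧ (A.res r h1 h2).MtM ∞ g h ∧
      PF (A.res r h1 h2) a h ∧ Rel (A.res r h1 h2) y'.lam g a h G g' a'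

variable (A) (l : Cy A ℂ) (n)

/-- the slice of the Hodge moduli space (times the curve) at `λ` -/
abbrev Sl (lam : ℂ) : Type := {y : Mod A l (tauX n) // y.lam = lam}

/-- **NU**: the section of the Hodge moduli space and the homeomorphism -/
def NU : Prop := ∃ (Sg : C(ℂ × Sl A n l 0, Mod A l (tauX n))) (ν : Sl A n l 0 ≃ₜ Sl A n l 1),
  (∀ lam y y', Sg (lam, y) = y' ↔ y'.lam = lam ∧ NuR y.1 y') ∧ (∀ y, Sg (0, y) = y.1) ∧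
    ∀ y, Sg (1, y) = (ν y).1

/-- bounded sequences of Higgs bundles have convergent subsequences -/
def HSQ : Prop := ∀ (y : ℕ → Mod A l (tauX n)) (r : ℕ → ℝ) (h1 : ∀ k, 1 < r k)
  (h2 : ∀ k, r k ≤ A.R) (g : ℕ → Cy A (Mn n)) (a : ℕ → Fm A (Mn n)) (M : ℝ),
  (∀ k, (y k).lam = 0 ∧ Cl (y k) (r k) (h1 k) (h2 k) (g k) (a k)) →
  (∀ k i, ∀ w ∈ ball (0 : ℂ) 1, ∀ q, ‖(a k i w).charpoly.coeff q‖ ≤ M) →
  ∃ (σ : ℕ → ℕ) (y₀ : Mod A l (tauX n)), StrictMono σ ∧ Tendsto (y ∘ σ) atTop (𝓝 y₀)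

end Vale.Agent.P275NU
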