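import Vale.Agent.P275NU.Defs
import Vale.Agent.P275MB.Iso

/-!
P275 (helper85), block NU: the topological end of the proof.
-/

set_option linter.all false

open scoped Topology
open Filter Set
open Vale.Agent.P275NA (Cy)
open Vale.Agent.P275GC Vale.Agent.P275MO
open Vale.Agent.P275Z (tauX)
open Vale.Agent.P275MB (sc)

noncomputable section

namespace Vale.Agent.P275NU

variable {C : Type} [TopologicalSpace C] (A : At C) (n : ℕ) (l : Cy A ℂ)

/-- every orbit of the scaling has a limit point at `λ = 0` -/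
def LIM : Prop := ∀ y : Mod A l (tauX n), ∃ y₀ : Mod A l (tauX n), y₀.lam = 0 ∧
  y₀ ∈ closure (range fun s : ℂˣ => sc s y)

/-- invariance of domain and connectedness -/
def TOPO : Prop := KUR n A l → NICE n A l → LIM A n l →
  ∀ (Sg : C(ℂ × Sl A n l 0, Mod A l (tauX n))) (ν : Sl A n l 0 → Sl A n l 1),
    (∀ lam y, (Sg (lam, y)).lam = lam) → (∀ y, Sg (0, y) = y.1) → (∀ y, Sg (1, y) = (ν y).1) →
    Function.Injective ν →
    (∀ (y : ℕ → Sl A n l 0) (y' : Sl A n l 1), Tendsto (ν ∘ y) atTop (𝓝 y') →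
      ∃ (σ : ℕ → ℕ) (y₀ : Sl A n l 0), StrictMono σ ∧ Tendsto (y ∘ σ) atTop (𝓝 y₀)) →
    IsHomeomorph ν

/-- every point has a representative on discs of any radius -/
def REP : Prop := ∀ (τ : Ty n) (y : Mod A l τ) (r : ℝ) (h1 : 1 < r) (h2 : r < A.R),
  ∃ z : Ob A l τ, z.pt = y ∧ Good (A.res r h1 h2.le) l z.1

end Vale.Agent.P275NU
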