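import Vale.Agent.P275NU.Eng
import Vale.Agent.P275NU.Defs
import Vale.Agent.P275MB.Iso
import Vale.Agent.P275IN.Int

/-!
P275 (helper85), block NU: the relation between Higgs bundles and connections on an atlas.
-/

set_option linter.all false

open scoped Matrix.Norms.Operator Topology ComplexOrder ComplexConjugate ContDiff
open Filter Set Matrix Complex Metric
open Vale.Agent.P281Z.Hm
open Vale.Agent.P275NA Vale.Agent.P275HK Vale.Agent.P275GC.At
open Vale.Agent.P275GC (At)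
open Vale.Agent.P275MO (tf)
open Vale.Agent.P275MB (rr)

noncomputable section

namespace Vale.Agent.P275NU

variable {n : ℕ} {z lam : ℂ}

section loc

variable {a h G : ℂ → Mn n}

theorem dzm (hf : DifferentiableAt ℂ G z) : dz G z = deriv G z := dz_hol hf

theorem db_tf (hf : DifferentiableAt ℝ G z) : db (fun x => tf (G x)) z = tf (db G z) := by
  have d := df_trace hf
  have e : wb 1 (fun x => ((n : ℂ)⁻¹ * trace (G x)) • (1 : Mn n)) z =
      ((n : ℂ)⁻¹ * trace (wb 1 G z)) • (1 : Mn n) := by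
    rw [wb_smul (d.const_mul _) (differentiableAt_const _), wb_const, smul_zero, add_zero,
      wb_cmul (differentiableAt_const _) d, wb_const, zero_mul, zero_add, wb_trace hf]
  simp only [tf]
  rw [db, wb_sub hf ((d.const_mul _).smul_const _), e]

theorem cd_tf {N : WithTop ℕ∞} (hf : ContDiffAt ℝ N G z) : ContDiffAt ℝ N (fun x => tf (G x)) z :=
  hf.sub (P275GC.cd_smul (contDiffAt_const.mul (cd_trace hf)) contDiffAt_const)

theorem tf_br (h a : Mn n) : tf (br h a) = br h a := tf_of (tr_br h a)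

theorem tf_comm (X Y : Mn n) : Y * tf X - tf X * Y = Y * X - X * Y := by
  simp only [tf, Matrix.mul_sub, Matrix.sub_mul, Matrix.mul_smul, Matrix.smul_mul, Matrix.mul_one,
    Matrix.one_mul]
  abel

/-- the connection matrix in the new frame is holomorphic -/
theorem db_new (ha : AnalyticAt ℂ a z) (hh : ContDiffAt ℝ ∞ h z) (ph : ∀ᶠ x in 𝓝 z, (h x).PosDef)
    (hG : ContDiffAt ℝ ∞ G z) (h0 : (G z).det ≠ 0)
    (e : ∀ᶠ x in 𝓝 z, db G x + lam • (ad (h x) (h x) (a x) * G x) = 0) (pf : tf (hk h a z) = 0) :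
    db (fun x => (G x)⁻¹ * (lam • dz G x + (lam • tf (cn h x) + a x) * G x)) z = 0 := by
  have H : MetAt h z := ⟨hh.of_le two_le, ph⟩
  have G2 : ContDiffAt ℝ 2 G z := hG.of_le two_le
  have p := pd_ne ph.self_of_nhds
  have dG := c2_df G2
  have da := hol_df ha
  have dc := df_cn H
  have dt : DifferentiableAt ℝ (fun x => tf (cn h x)) z :=
    (cd_tf (N := 1) (cd_cn (by rw [one_add_one_eq_two]; exact H.c2) p)).differentiableAt one_ne_zero
  have dβ : DifferentiableAt ℝ (fun x => lam • tf (cn h x) + a x) z := (df_msmul _ dt).fun_add da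
  have dad := df_ad (MetAt.df H) p (MetAt.df H) da
  have e0 : wb 1 G z = -(lam • (ad (h z) (h z) (a z) * G z)) :=
    eq_neg_of_add_eq_zero_left e.self_of_nhds
  have e1 : wb 1 (wd 1 G) z = -(lam • ((ad (h z) (h z) (a z) * cn h z - cn h z *
      ad (h z) (h z) (a z)) * G z + ad (h z) (h z) (a z) * wd 1 G z)) := by
    rw [← wd_wb_comm G2, wd_congr (g := fun x => -(lam • (ad (h x) (h x) (a x) * G x)))
      (e.mono fun x hx => eq_neg_of_add_eq_zero_left hx), wd_neg, wd_msmul _ (df_mul dad dG),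
      wd_mul dad dG, ← dz, dz_ad (MetAt.df H) p (MetAt.df H) p da, db_hol ha, ad_zero, zero_add]
  have e2 : wb 1 (fun x => lam • tf (cn h x) + a x) z = lam • br (h z) (a z) := by
    rw [wb_add (df_msmul _ dt) da, wb_msmul _ dt, wb_hol ha.differentiableAt, add_zero, ← db,
      db_tf dc]
    rw [hk, tf_add, tf_br, P275NA.cv, ← neg_one_smul ℂ, tf_smul, neg_one_smul, neg_add_eq_zero] at pf
    rw [pf]
  have t := tf_comm (cn h z) (ad (h z) (h z) (a z))
  rw [db, wb_mul (df_inv dG h0) ((df_msmul _ (df_dz G2)).fun_add (df_mul dβ dG)), wb_minv dG h0,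
    wb_add (df_msmul _ (df_dz G2)) (df_mul dβ dG), wb_msmul _ (df_dz G2), wb_mul dβ dG, e2, dz, e1,
    e0, ← t, br, Matrix.neg_mul, Matrix.mul_assoc, Matrix.mul_assoc, ← Matrix.mul_neg,
    ← Matrix.mul_add]
  generalize ad (h z) (h z) (a z) = s
  generalize tf (cn h z) = c
  simp only [Matrix.neg_mul, Matrix.smul_mul, Matrix.mul_assoc, Matrix.mul_add, Matrix.mul_smul,
    mul_nonsing_inv_cancel_left _ _ h0.isUnit, Matrix.add_mul, Matrix.sub_mul, Matrix.mul_neg,
    smul_add, smul_sub, neg_neg, Matrix.mul_sub]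
  module

end loc

variable {C : Type} [TopologicalSpace C] {A : At C} {i j : Fin A.N} {l : Cy A ℂ}
  {g g' g'' g₁ g₂ : Cy A (Mn n)} {a a' a'' h G φ ψ a₁ a₂ h₁ h₂ G₁ G₂ : Fm A (Mn n)}
  {r r' : ℝ} {h1 : 1 < r} {h2 : r ≤ A.R}

theorem Con.hig (hn : 0 < n) (c : Con A l 0 g a) : Hig A A.d g a := by
  refine ⟨c.cc, c.hol, fun i j w hw => ?_⟩
  obtain ⟨s, e⟩ := c.law i j w hw
  have u := (dne c.cc hw).isUnit
  have t := congrArg (fun X => trace ((g i j w)⁻¹ * X)) e
  simp only [zero_smul, add_zero, Matrix.mul_add, Matrix.mul_smul, trace_add, trace_smul,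
    nonsing_inv_mul _ u, nonsing_inv_mul_cancel_left _ _ u, c.tr j _ (tr_ball hw), trace_one,
    Fintype.card_fin, smul_eq_mul, mul_zero, zero_add] at t
  rw [← Matrix.mul_assoc, trace_mul_cycle, mul_nonsing_inv _ u, Matrix.one_mul, c.tr i w hw.1] at t
  rwa [(mul_eq_zero.1 t.symm).resolve_right (Nat.cast_ne_zero.2 hn.ne'), zero_smul, zero_smul,
    add_zero, add_zero] at e

/-- the object without pole -/
def dat (A : At C) (lam : ℂ) (x : C) (g : Cy A (Mn n)) (a : Fm A (Mn n)) (σ : Fin A.N → Mn n) :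
    P275MO.Dat C A.N n := ⟨lam, x, g, a, σ, 0⟩

theorem good_of_con (c : Con A l lam g a) {x : C} {σ : Fin A.N → Mn n}
    (fr : ∀ i, x ∈ (A.e i).source → (σ i).det ≠ 0) (frc : ∀ i j, x ∈ (A.e i).source →
      x ∈ (A.e j).source → σ i = g i j (A.e i x) * σ j) : P275MO.Good A l (dat A lam x g a σ) := by
  refine ⟨c.cc, c.det, fun i => (c.hol i).mono fun _ e => e.1, fun i w e => c.tr i w e.1,
    fun i j w e _ => c.law i j w e, fr, frc, fun i e => ?_⟩
  have : ContinuousAt (fun w => (w - A.e i x) • a i w) (A.e i x) :=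
    (continuousAt_id.sub continuousAt_const).smul (c.hol.an (map_src e) i).continuousAt
  simpa [dat] using this.tendsto.mono_left nhdsWithin_le_nhds

theorem Con.res (c : Con A l lam g a) : Con (A.res r h1 h2) l lam g a :=
  ⟨c.cc.res, fun i j w b => c.det i j w (res_O.1 b).1, c.hol.res,
    fun i w b => c.tr i w (ball_subset_ball h2 b), fun i j w b => c.law i j w (res_O.1 b).1⟩

theorem PF.res (c : PF A a h) : PF (A.res r h1 h2) a h :=
  fun i w b => c i w (ball_subset_ball h2 b)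

theorem Rel.res (c : Rel A lam g a h G g' a') : Rel (A.res r h1 h2) lam g a h G g' a' :=
  ⟨c.sm.res, fun i w b => c.ne i w (ball_subset_ball h2 b),
    fun i w b => c.db i w (ball_subset_ball h2 b), fun i w b => c.dz i w (ball_subset_ball h2 b),
    fun i j w b => c.tr i j w (res_O.1 b).1⟩

theorem Con.mono (c : Con (A.res r h1 h2) l lam g a) (h1' : 1 < r') (h3 : r' ≤ r) :
    Con (A.res r' h1' (h3.trans h2)) l lam g a :=
  have := Con.res (h1 := h1') (h2 := h3) c
  (rr h1' h3 fun E => Con (E.at h1') l lam g a).1 this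

theorem PF.mono (c : PF (A.res r h1 h2) a h) (h1' : 1 < r') (h3 : r' ≤ r) :
    PF (A.res r' h1' (h3.trans h2)) a h := fun i w b => c i w (ball_subset_ball h3 b)

theorem Rel.mono (c : Rel (A.res r h1 h2) lam g a h G g' a') (h1' : 1 < r') (h3 : r' ≤ r) :
    Rel (A.res r' h1' (h3.trans h2)) lam g a h G g' a' :=
  have := Rel.res (h1 := h1') (h2 := h3) c
  (rr h1' h3 fun E => Rel (E.at h1') lam g a h G g' a').1 this

theorem mtm_mono {N : WithTop ℕ∞} (c : (A.res r h1 h2).MtM N g h) (h1' : 1 < r') (h3 : r' ≤ r) :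
    (A.res r' h1' (h3.trans h2)).MtM N g h :=
  have := At.MtM.res (h1 := h1') (h2 := h3) c
  (rr h1' h3 fun E => (E.at h1').MtM N g h).1 this

/-- horizontal maps -/
structure CH (A : At C) (lam : ℂ) (g : Cy A (Mn n)) (a : Fm A (Mn n)) (g' : Cy A (Mn n))
    (a' φ : Fm A (Mn n)) : Prop where
  hol : A.Hl φ
  law : ∀ i j, ∀ w ∈ A.O i j, φ i w * g i j w = g' i j w * φ j (A.tr i j w)
  con : ∀ i, ∀ w ∈ ball (0 : ℂ) A.R, lam • deriv (φ i) w + a' i w * φ i w = φ i w * a i w
  ne : ∀ i, ∀ w ∈ ball (0 : ℂ) A.R, (φ i w).det ≠ 0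

theorem CH.hom (c : CH A 0 g a g' a' φ) : Hom A g a g' a' φ :=
  ⟨c.hol, c.law, fun i w b => by rw [← c.con i w b, zero_smul, zero_add]⟩

theorem ch_of (c : Hom A g a g' a' φ) (d : ∀ i, ∀ w ∈ ball (0 : ℂ) A.R, (φ i w).det ≠ 0) :
    CH A 0 g a g' a' φ := ⟨c.hol, c.tr, fun i w b => by rw [c.com i w b, zero_smul, zero_add], d⟩

theorem top_ne : (∞ : WithTop ℕ∞) ≠ 0 := by simp

theorem one_le : (1 : WithTop ℕ∞) ≤ ∞ := by exact_mod_cast le_top

theorem rel_zero (g : Cy A (Mn n)) (a h : Fm A (Mn n)) : Rel A 0 g a h (fun _ _ => 1) g a :=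
  ⟨fun _ => contDiffOn_const, fun _ _ _ => by simp, fun _ _ _ => by simp [db],
    fun _ _ _ => by simp, fun _ _ _ _ => by simp⟩

theorem Rel.comp (c : Rel A lam g a h G g' a') (f : CH A lam g'' a'' g' a' ψ) :
    Rel A lam g a h (fun i w => G i w * ψ i w) g'' a'' := by
  refine ⟨fun i w b => (cd_mul (c.sm.at b i) (hol_cd (f.hol.an b i))).contDiffWithinAt,
    fun i w b => by rw [det_mul]; exact mul_ne_zero (c.ne i w b) (f.ne i w b), fun i w b => ?_,
    fun i w b => ?_, fun i j w b => ?_⟩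
  · rw [P275NA.db, wb_mul (c.sm.df top_ne b i) (hol_df (f.hol.an b i)),
      wb_hol (f.hol.an b i).differentiableAt, Matrix.mul_zero, add_zero, ← Matrix.mul_assoc,
      ← Matrix.smul_mul, ← Matrix.add_mul]
    exact (congrArg (· * ψ i w) (c.db i w b)).trans (Matrix.zero_mul _)
  · have e1 := congrArg (· * ψ i w) (c.dz i w b)
    have e2 := congrArg (G i w * ·) (f.con i w b)
    rw [P275NA.dz, wd_mul (c.sm.df top_ne b i) (hol_df (f.hol.an b i)),
      show wd 1 (ψ i) w = deriv (ψ i) w from dz_hol (f.hol.an b i).differentiableAt]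
    simp only [Matrix.add_mul, Matrix.mul_add, Matrix.smul_mul, Matrix.mul_smul, Matrix.mul_assoc,
      smul_add, P275NA.dz] at e1 e2 ⊢
    linear_combination (norm := module) e1 + e2
  · rw [← Matrix.mul_assoc, c.tr i j w b, Matrix.mul_assoc, ← f.law i j w b, Matrix.mul_assoc]

/-- parallel maps of Higgs bundles give horizontal maps -/
theorem Rel.ch {g₁' g₂' : Cy A (Mn n)} {a₁' a₂' : Fm A (Mn n)}
    (c₁ : Rel A lam g₁ a₁ h₁ G₁ g₁' a₁') (c₂ : Rel A lam g₂ a₂ h₂ G₂ g₂' a₂')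
    (f : CH A 0 g₁ a₁ g₂ a₂ φ) (p : lam ≠ 0 → ∀ i, ∀ w ∈ ball (0 : ℂ) A.R,
      P275NA.dz (φ i) w + tf (cn (h₂ i) w) * φ i w = φ i w * tf (cn (h₁ i) w) ∧
      ad (h₂ i w) (h₂ i w) (a₂ i w) * φ i w = φ i w * ad (h₁ i w) (h₁ i w) (a₁ i w)) :
    CH A lam g₁' a₁' g₂' a₂' fun i w => (G₂ i w)⁻¹ * (φ i w * G₁ i w) := by
  have d1 := fun i w b => c₁.sm.df top_ne (z := w) b i
  have d2 := fun i w b => c₂.sm.df top_ne (z := w) b i
  have dφ := fun i w b => hol_df (f.hol.an (z := w) b i)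
  have q : ∀ i, ∀ w ∈ ball (0 : ℂ) A.R, lam • (P275NA.dz (φ i) w + tf (cn (h₂ i) w) * φ i w) =
      lam • (φ i w * tf (cn (h₁ i) w)) ∧ lam • (ad (h₂ i w) (h₂ i w) (a₂ i w) * φ i w) =
      lam • (φ i w * ad (h₁ i w) (h₁ i w) (a₁ i w)) := fun i w b => by
    rcases eq_or_ne lam 0 with rfl | e
    · simp
    · rw [(p e i w b).1, (p e i w b).2]; exact ⟨rfl, rfl⟩
  have hd : ∀ i, ∀ w ∈ ball (0 : ℂ) A.R,
      DifferentiableAt ℂ (fun w => (G₂ i w)⁻¹ * (φ i w * G₁ i w)) w := fun i w b => by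
    refine P275IN.hol_quot (a := lam • ad (h₂ i w) (h₂ i w) (a₂ i w)) (d2 i w b)
      (df_mul (dφ i w b) (d1 i w b)) (c₂.ne i w b) (by rw [Matrix.smul_mul]; exact c₂.db i w b) ?_
    have e1 := congrArg (φ i w * ·) (c₁.db i w b)
    have e2 := congrArg (· * G₁ i w) (q i w b).2
    rw [P275NA.db, wb_mul (dφ i w b) (d1 i w b), wb_hol (f.hol.an b i).differentiableAt]
    simp only [Matrix.mul_add, Matrix.smul_mul, Matrix.mul_smul, Matrix.mul_assoc, Matrix.mul_zero,
      Matrix.zero_mul, P275NA.db] at e1 e2 ⊢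
    linear_combination (norm := module) e1 + e2
  refine ⟨fun i w b => (hd i w b).differentiableWithinAt, fun i j w b => ?_, fun i w b => ?_,
    fun i w b => ?_⟩
  · have u := (c₂.ne i w b.1).isUnit
    have v := (c₂.ne j _ (tr_ball b)).isUnit
    rw [Matrix.mul_assoc, Matrix.mul_assoc, ← c₁.tr i j w b, ← Matrix.mul_assoc (φ i w),
      f.law i j w b, ← mul_nonsing_inv_cancel_right _ (g₂ i j w) v, c₂.tr i j w b]
    simp only [Matrix.mul_assoc, nonsing_inv_mul_cancel_left _ _ u]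
  · have u := (c₂.ne i w b).isUnit
    have e1 := congrArg (fun X => (G₂ i w)⁻¹ * (φ i w * X)) (c₁.dz i w b)
    have e2 := congrArg (fun X => (G₂ i w)⁻¹ * (X * ((G₂ i w)⁻¹ * (φ i w * G₁ i w)))) (c₂.dz i w b)
    have e3 := congrArg (fun X => (G₂ i w)⁻¹ * (X * G₁ i w)) (q i w b).1
    have e4 := congrArg (fun X => (G₂ i w)⁻¹ * (X * G₁ i w)) (f.con i w b)
    rw [← dzm (hd i w b), P275NA.dz, wd_mul (df_inv (d2 i w b) (c₂.ne i w b))
      (df_mul (dφ i w b) (d1 i w b)), wd_minv (d2 i w b) (c₂.ne i w b), wd_mul (dφ i w b) (d1 i w b)]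
    simp only [Matrix.add_mul, Matrix.mul_add, Matrix.smul_mul, Matrix.mul_smul, Matrix.mul_assoc,
      smul_add, P275NA.dz, Matrix.neg_mul, smul_neg, zero_smul, zero_add,
      mul_nonsing_inv_cancel_left _ _ u, nonsing_inv_mul_cancel_left _ _ u] at e1 e2 e3 e4 ⊢
    linear_combination (norm := module) e1 - e2 + e3 + e4
  · rw [det_mul, det_mul]
    exact mul_ne_zero (isUnit_nonsing_inv_det _ (c₂.ne i w b).isUnit).ne_zero
      (mul_ne_zero (f.ne i w b) (c₁.ne i w b))

theorem ad_law {N : WithTop ℕ∞} (ha : Hig A A.d g a) (H : A.MtM N g h) (hz : z ∈ A.O i j) :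
    ad (h i z) (h i z) (a i z) * g i j z = conj (A.d i j z) •
      (g i j z * ad (h j (A.tr i j z)) (h j (A.tr i j z)) (a j (A.tr i j z))) := by
  have u := dne ha.cc hz
  have e := ad_frame u u (h i z) (h i z) (g i j z * a j (A.tr i j z) * (g i j z)⁻¹)
  rw [← H.tr i j z hz] at e
  simp only [Matrix.mul_assoc, nonsing_inv_mul _ u.isUnit, Matrix.mul_one,
    nonsing_inv_mul_cancel_left _ _ u.isUnit] at e
  rw [hig_tr ha hz, ad_smul, Matrix.smul_mul, e]
  simp only [Matrix.mul_assoc, mul_nonsing_inv_cancel_left _ _ u.isUnit]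

theorem cn_law (hg : A.Cc g) (H : A.MtM ∞ g h) (hz : z ∈ A.O i j) :
    A.d i j z • (g i j z * cn (h j) (A.tr i j z)) = cn (h i) z * g i j z + deriv (g i j) z := by
  have u := dne hg hz
  have e := cn_chg (H.sm.df top_ne hz.1 i) (pd_ne (H.pos i z hz.1)) (hg.an hz) u
  rw [← (cn_congr (h := fun x => h j (A.tr i j x)) (eventually_of_mem (O_nhds hz)
    fun x b => H.tr i j x b)).self_of_nhds,
    cn_comp (H.sm.df top_ne (tr_ball hz) j) (df_tr hz)] at e
  rw [← Matrix.mul_smul, At.d, e]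
  simp only [Matrix.mul_add, Matrix.mul_assoc, mul_nonsing_inv_cancel_left _ _ u.isUnit]

/-- the new object is a `λ`-connection -/
theorem Rel.con (hn : 0 < n) (c : Rel A lam g a h G g' a') (b : Con A l 0 g a) (H : A.MtM ∞ g h)
    (pf : PF A a h) (d : ∀ i, ∀ w ∈ ball (0 : ℂ) A.R, (G i w).det = 1) : Con A l lam g' a' := by
  have ha := b.hig hn
  have dG := fun i w q => c.sm.df top_ne (z := w) q i
  have eg : ∀ i j, ∀ w ∈ A.O i j, g' i j w = (G i w)⁻¹ * (g i j w * G j (A.tr i j w)) :=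
    fun i j w q => by rw [c.tr i j w q, nonsing_inv_mul_cancel_left _ _ (c.ne i w q.1).isUnit]
  have ea : ∀ i, ∀ w ∈ ball (0 : ℂ) A.R, a' i w =
      (G i w)⁻¹ * (lam • P275NA.dz (G i) w + (lam • tf (cn (h i) w) + a i w) * G i w) :=
    fun i w q => by rw [c.dz i w q, nonsing_inv_mul_cancel_left _ _ (c.ne i w q).isUnit]
  have dt : ∀ i j, ∀ w ∈ A.O i j, DifferentiableAt ℝ (fun x => G j (A.tr i j x)) w :=
    fun i j w q => (dG j _ (tr_ball q)).comp w (hol_df (an_tr q))
  have hg : ∀ i j, ∀ w ∈ A.O i j, DifferentiableAt ℂ (g' i j) w := fun i j w q => by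
    refine (P275IN.hol_quot (a := lam • ad (h i w) (h i w) (a i w)) (dG i w q.1)
      (df_mul (hol_df (b.cc.an q)) (dt i j w q)) (c.ne i w q.1)
      (by rw [Matrix.smul_mul]; exact c.db i w q.1) ?_).congr_of_eventuallyEq
      (eventually_of_mem (O_nhds q) (eg i j))
    have e1 := congrArg (fun X => conj (A.d i j w) • (g i j w * X)) (c.db j _ (tr_ball q))
    have e2 := congrArg (fun X => lam • (X * G j (A.tr i j w))) (ad_law ha H q)
    rw [P275NA.db, wb_mul (hol_df (b.cc.an q)) (dt i j w q), wb_hol (b.cc.an q).differentiableAt, ← P275NA.db,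
      db_comp (dG j _ (tr_ball q)) (df_tr q), ← At.d]
    simp only [Matrix.mul_add, Matrix.smul_mul, Matrix.mul_smul, Matrix.mul_assoc, Matrix.mul_zero,
      Matrix.zero_mul, smul_add] at e1 e2 ⊢
    linear_combination (norm := module) e1 + e2
  refine ⟨⟨fun i j w q => (hg i j w q).differentiableWithinAt, fun i w q => ?_,
    fun i j k w p q => ?_⟩, fun i j w q => ?_, hl_of_db (fun i w q => ?_) fun i w q => ?_,
    fun i w q => ?_, fun i j w q => ?_⟩
  · rw [eg i i w (O_self q), b.cc.one i w q, tr_self q, Matrix.one_mul,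
      nonsing_inv_mul _ (c.ne i w q).isUnit]
  · rw [eg i k w q, eg i j w p, eg j k _ (tr_O p q), b.cc.mul i j k w p q, tr_tr p]
    simp only [Matrix.mul_assoc, mul_nonsing_inv_cancel_left _ _ (c.ne j _ (tr_ball p)).isUnit]
  · rw [eg i j w q, det_mul, det_mul, det_nonsing_inv, d i w q.1, d j _ (tr_ball q), b.det i j w q,
      Ring.inverse_one, one_mul, mul_one]
  · have s := c.sm.at q i
    exact ((cd_mul (cd_inv (s.of_le one_le) (c.ne i w q)) ((P275GC.cd_csmul _ (cd_dz (N := 1)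
      (s.of_le (by rw [one_add_one_eq_two]; exact two_le)))).add (cd_mul ((P275GC.cd_csmul _ (cd_tf
      (cd_cn (N := 1) ((H.sm.at q i).of_le (by rw [one_add_one_eq_two]; exact two_le))
      (pd_ne (H.pos i w q))))).add (hol_cd (b.hol.an q i))) (s.of_le one_le)))).congr_of_eventuallyEq
      (eventually_of_mem (isOpen_ball.mem_nhds q) (ea i))).contDiffWithinAt
  · have o := isOpen_ball.mem_nhds q
    exact (wb_congr (eventually_of_mem o (ea i)) 1).trans (db_new (b.hol.an q i) (H.sm.at q i)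
      (eventually_of_mem o (H.pos i)) (c.sm.at q i) (c.ne i w q) (eventually_of_mem o (c.db i))
      (pf i w q))
  · have e := wd_det (dG i w q) (c.ne i w q) 1
    rw [wd_congr (g := fun _ => 1) (eventually_of_mem (isOpen_ball.mem_nhds q) (d i)), wd_const,
      d i w q, one_mul] at e
    rw [ea i w q, Matrix.mul_add, Matrix.mul_smul, trace_add, trace_smul, P275NA.dz, ← e, smul_zero,
      zero_add, ← Matrix.mul_assoc, trace_mul_cycle, mul_nonsing_inv _ (c.ne i w q).isUnit,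
      Matrix.one_mul, trace_add, trace_smul, tr_tf hn, b.tr i w q, smul_zero, add_zero]
  · have e0 := wd_congr (eventually_of_mem (O_nhds q) (c.tr i j)) (1 : ℂ)
    rw [wd_mul (hol_df (b.cc.an q)) (dt i j w q), wd_mul (dG i w q.1)
      ((hg i j w q).restrictScalars ℝ), ← P275NA.dz, ← P275NA.dz, ← P275NA.dz, ← P275NA.dz, dzm (b.cc.an q).differentiableAt,
      dzm (hg i j w q), dz_comp (dG j _ (tr_ball q)) (df_tr q), ← At.d] at e0
    refine ⟨lam * (A.d i j w * ((n : ℂ)⁻¹ * trace (cn (h j) (A.tr i j w))) -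
      (n : ℂ)⁻¹ * trace (cn (h i) w)), ((isUnit_iff_isUnit_det _).2
        (c.ne i w q.1).isUnit).mul_right_injective ?_⟩
    have e1 := congrArg (· * g' i j w) (c.dz i w q.1)
    have e2 := congrArg (fun X => A.d i j w • (g i j w * X)) (c.dz j _ (tr_ball q))
    have e3 := congrArg (fun X => lam • (X * G j (A.tr i j w))) (cn_law b.cc H q)
    have e4 := congrArg (· * G j (A.tr i j w)) (ha.tr i j w q)
    have e5 := congrArg (lam • ·) e0
    have t := c.tr i j w q
    have t' : ∀ X : Mn n, G i w * (g' i j w * X) = g i j w * (G j (A.tr i j w) * X) := fun X => by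
      rw [← Matrix.mul_assoc, ← t, Matrix.mul_assoc]
    simp only [tf, Matrix.add_mul, Matrix.mul_add, Matrix.sub_mul, Matrix.mul_sub, Matrix.smul_mul,
      Matrix.mul_smul, Matrix.mul_assoc, smul_add, smul_sub, Matrix.one_mul, ← t, t']
      at e1 e2 e3 e4 e5 ⊢
    linear_combination (norm := module) e2 - e1 - e5 - e3 + e4

theorem cd_α (ha : A.Hl a) (H : A.MtM ∞ g h) (lam : ℂ) (i : Fin A.N) :
    ContDiffOn ℝ ∞ (fun w => lam • ad (h i w) (h i w) (a i w)) (ball 0 A.R) := fun w q =>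
  (P275GC.cd_csmul _ (cd_ad (H.sm.at q i) (pd_ne (H.pos i w q)) (H.sm.at q i)
    (hol_cd (ha.an q i)))).contDiffWithinAt

theorem tr_α (b : Con A l 0 g a) (H : A.MtM ∞ g h) (lam : ℂ) (i : Fin A.N) :
    ∀ w ∈ ball (0 : ℂ) A.R, (lam • ad (h i w) (h i w) (a i w)).trace = 0 := fun w q => by
  rw [trace_smul, tr_ad (pd_det (H.pos i w q)), b.tr i w q, map_zero, smul_zero]

/-- the connection matrices in the frames `G` -/
def na (lam : ℂ) (a h G : Fm A (Mn n)) : Fm A (Mn n) := fun i w =>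
  (G i w)⁻¹ * (lam • dz (G i) w + (lam • tf (cn (h i) w) + a i w) * G i w)

theorem rel_of (sm : A.Sm ∞ G) (d : ∀ i, ∀ w ∈ ball (0 : ℂ) A.R, (G i w).det = 1)
    (e : ∀ i, ∀ w ∈ ball (0 : ℂ) A.R, db (G i) w + (lam • ad (h i w) (h i w) (a i w)) * G i w = 0) :
    Rel A lam g a h G (fc A G g) (na lam a h G) :=
  have u : ∀ i, ∀ w ∈ ball (0 : ℂ) A.R, (G i w).det ≠ 0 := fun i w q => d i w q ▸ one_ne_zero
  ⟨sm, u, fun i w q => by rw [← Matrix.smul_mul]; exact e i w q,
    fun i w q => (mul_nonsing_inv_cancel_left _ _ (u i w q).isUnit).symm, fun i j w q => by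
      rw [fc, Matrix.mul_assoc, mul_nonsing_inv_cancel_left _ _ (u i w q.1).isUnit]⟩

theorem ex_rel (b : Con A l 0 g a) (H : A.MtM ∞ g h) (lam : ℂ) (h1 : 1 < r) (h2 : r < A.R) :
    ∃ G : Fm A (Mn n), (∀ i, ∀ w ∈ ball (0 : ℂ) r, (G i w).det = 1) ∧
      Rel (A.res r h1 h2.le) lam g a h G (fc A G g) (na lam a h G) := by
  choose G hG using fun i => P275IN.exists_fr1 h2 (cd_α b.hol H lam i) (tr_α b H lam i)
  exact ⟨G, fun i w q => (hG i w q).2.1, rel_of (A := A.res r h1 h2.le)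
    (fun i w q => (hG i w q).1.contDiffWithinAt) (fun i w q => (hG i w q).2.1)
    fun i w q => (hG i w q).2.2⟩

end Vale.Agent.P275NU
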