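import Vale.Agent.P275HK.Hom

/-!
P275 (helper85), block NU: the pointwise inequality behind the energy bound.
-/

set_option linter.all false

open scoped Matrix.Norms.Operator Topology ComplexOrder ComplexConjugate
open Filter Set Matrix Complex
open Vale.Agent.P281Z.Hm
open Vale.Agent.P275NA Vale.Agent.P275HK

noncomputable section

namespace Vale.Agent.P275NU

variable {n : Type} [Fintype n] [DecidableEq n]

/-- simultaneous diagonalisation -/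
theorem ex_diag {h k : Mx n} (hh : h.PosDef) (hk : k.PosDef) : ∃ (T : Mx n) (μ : n → ℝ),
    T.det ≠ 0 ∧ (∀ i, 0 < μ i) ∧ h = Tᴴ * 1 * T ∧ k = Tᴴ * diagonal (fun i => (μ i : ℂ)) * T := by
  obtain ⟨Q, hQ, rfl⟩ := ex_sq hh
  have hi : (Q⁻¹).det ≠ 0 := (isUnit_nonsing_inv_det Q hQ).ne_zero
  have p : (Q⁻¹ᴴ * k * Q⁻¹).PosDef := hk.conjTranspose_mul_mul_same (inj_of_det hi)
  set U : Mx n := (p.isHermitian.eigenvectorUnitary : Mx n)
  have u1 : U * Uᴴ = 1 := p.isHermitian.eigenvectorUnitary.2.2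
  have u2 : Uᴴ * U = 1 := p.isHermitian.eigenvectorUnitary.2.1
  have e : Q⁻¹ᴴ * k * Q⁻¹ = U * diagonal (fun i => (p.isHermitian.eigenvalues i : ℂ)) * Uᴴ := by
    have := p.isHermitian.spectral_theorem
    rw [Unitary.conjStarAlgAut_apply] at this
    exact this
  refine ⟨Uᴴ * Q, p.isHermitian.eigenvalues, ?_, p.eigenvalues_pos, ?_, ?_⟩
  · rw [det_mul]
    exact mul_ne_zero (isUnit_det_of_right_inverse u2).ne_zero hQ.ne_zero
  · rw [conjTranspose_mul, conjTranspose_conjTranspose, Matrix.mul_one, Matrix.mul_assoc,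
      ← Matrix.mul_assoc U, u1, Matrix.one_mul]
  · have : k = Qᴴ * (Q⁻¹ᴴ * k * Q⁻¹) * Q := by
      rw [conjTranspose_nonsing_inv]
      simp only [Matrix.mul_assoc, nonsing_inv_mul _ hQ, Matrix.mul_one,
        mul_nonsing_inv_cancel_left _ _ (ct_det hQ.ne_zero)]
    refine this.trans ((congrArg (Qᴴ * · * Q) e).trans ?_)
    rw [conjTranspose_mul Uᴴ, conjTranspose_conjTranspose]
    simp only [Matrix.mul_assoc]

theorem tel {a t : ℝ} (ha : 0 < a) (ht : 0 < t) (N : ℕ) :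
    ∑ m ∈ Finset.range N, t * 2 ^ m * a / (a + t * 2 ^ m) ^ 2 ≤ 2 := by
  have h : ∀ m : ℕ, t * 2 ^ m * a / (a + t * 2 ^ m) ^ 2 ≤
      2 * (t * 2 ^ (m + 1) / (a + t * 2 ^ (m + 1))) - 2 * (t * 2 ^ m / (a + t * 2 ^ m)) := by
    intro m
    rw [pow_succ 2 m, ← mul_assoc]
    have hs : 0 < t * 2 ^ m := by positivity
    generalize t * 2 ^ m = s at *
    rw [← mul_sub, div_sub_div _ _ (by positivity) (by positivity), ← mul_div_assoc,
      div_le_div_iff₀ (by positivity) (by positivity)]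
    have : 0 ≤ s * a * (a + s) * a := by positivity
    nlinarith
  refine (Finset.sum_le_sum fun m _ => h m).trans ?_
  rw [Finset.sum_range_sub fun m => 2 * (t * 2 ^ m / (a + t * 2 ^ m))]
  have b1 : t * 2 ^ N / (a + t * 2 ^ N) ≤ 1 := div_le_one_of_le₀ (by linarith) (by positivity)
  have b2 : 0 ≤ t * 2 ^ 0 / (a + t * 2 ^ 0) := by positivity
  linarith

theorem ex_dy {b t : ℝ} (ht : 0 < t) (h1 : t ≤ b) {N : ℕ} (h2 : b ≤ t * 2 ^ N) :
    ∃ m ∈ Finset.range (N + 1), b ≤ t * 2 ^ m ∧ t * 2 ^ m ≤ 2 * b := by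
  classical
  have ex : ∃ m : ℕ, b ≤ t * 2 ^ m := ⟨N, h2⟩
  refine ⟨Nat.find ex, Finset.mem_range.2 (Nat.lt_succ_of_le (Nat.find_min' ex h2)),
    Nat.find_spec ex, ?_⟩
  rcases h : Nat.find ex with _ | m
  · rw [pow_zero]; linarith
  · have := Nat.find_min ex (m := m) (by omega)
    rw [pow_succ]
    linarith [not_le.1 this]

theorem ent_one {μ ν s : ℝ} (hμ : 0 < μ) (hν : 0 < ν) (hs : 0 < s) (x y : ℂ) :
    s * (x * (y - ((μ + ν : ℝ) : ℂ) * conj x)).re / ((μ + s) * (ν + s)) ≤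
      -(s * (μ + ν) / ((μ + s) * (ν + s))) * ‖x‖ ^ 2 / 2 +
        s * min μ ν / (min μ ν + s) ^ 2 * (‖y‖ ^ 2 / (μ * ν)) / 2 := by
  have e : (x * (y - ((μ + ν : ℝ) : ℂ) * conj x)).re = (x * y).re - (μ + ν) * ‖x‖ ^ 2 := by
    rw [mul_sub, sub_re, mul_left_comm, mul_conj', ← ofReal_pow, ← ofReal_mul, ofReal_re]
  have a : (x * y).re ≤ (μ + ν) * ‖x‖ ^ 2 / 2 + ‖y‖ ^ 2 / (μ + ν) / 2 := by
    refine (re_le_norm _).trans ?_
    rw [norm_mul, ← sub_nonneg]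
    have : (μ + ν) * ‖x‖ ^ 2 / 2 + ‖y‖ ^ 2 / (μ + ν) / 2 - ‖x‖ * ‖y‖ =
        ((μ + ν) * ‖x‖ - ‖y‖) ^ 2 / (μ + ν) / 2 := by field_simp; ring
    rw [this]; positivity
  have m0 : 0 < min μ ν := lt_min hμ hν
  have b : s / ((μ + s) * (ν + s)) * (‖y‖ ^ 2 / (μ + ν)) ≤
      s * min μ ν / (min μ ν + s) ^ 2 * (‖y‖ ^ 2 / (μ * ν)) := by
    have b1 : (min μ ν + s) ^ 2 ≤ (μ + s) * (ν + s) := by
      rw [sq]
      exact mul_le_mul (by linarith [min_le_left μ ν]) (by linarith [min_le_right μ ν])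
        (by positivity) (by positivity)
    have b2 : 1 / (μ + ν) ≤ min μ ν / (μ * ν) := by
      rw [div_le_div_iff₀ (by positivity) (by positivity)]
      rcases le_total μ ν with h | h
      · rw [min_eq_left h]; nlinarith
      · rw [min_eq_right h]; nlinarith
    calc s / ((μ + s) * (ν + s)) * (‖y‖ ^ 2 / (μ + ν))
        = s / ((μ + s) * (ν + s)) * (1 / (μ + ν)) * ‖y‖ ^ 2 := by ring
      _ ≤ s / (min μ ν + s) ^ 2 * (min μ ν / (μ * ν)) * ‖y‖ ^ 2 := by gcongr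
      _ = _ := by ring
  have c : 0 ≤ s / ((μ + s) * (ν + s)) := by positivity
  have d := mul_le_mul_of_nonneg_left a c
  rw [e]
  calc s * ((x * y).re - (μ + ν) * ‖x‖ ^ 2) / ((μ + s) * (ν + s))
      = s / ((μ + s) * (ν + s)) * (x * y).re - s / ((μ + s) * (ν + s)) * ((μ + ν) * ‖x‖ ^ 2) := by
        ring
    _ ≤ s / ((μ + s) * (ν + s)) * ((μ + ν) * ‖x‖ ^ 2 / 2 + ‖y‖ ^ 2 / (μ + ν) / 2) -
        s / ((μ + s) * (ν + s)) * ((μ + ν) * ‖x‖ ^ 2) := by linarith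
    _ = -(s * (μ + ν) / ((μ + s) * (ν + s))) * ‖x‖ ^ 2 / 2 +
        s / ((μ + s) * (ν + s)) * (‖y‖ ^ 2 / (μ + ν)) / 2 := by ring
    _ ≤ _ := by linarith

theorem ent_sum {μ ν t : ℝ} (ht : 0 < t) (h1 : t ≤ μ) (h2 : t ≤ ν) {N : ℕ} (h3 : μ ≤ t * 2 ^ N)
    (h4 : ν ≤ t * 2 ^ N) (x y : ℂ) : ∑ m ∈ Finset.range (N + 1),
      t * 2 ^ m * (x * (y - ((μ + ν : ℝ) : ℂ) * conj x)).re / ((μ + t * 2 ^ m) * (ν + t * 2 ^ m)) ≤
      -‖x‖ ^ 2 / 18 + ‖y‖ ^ 2 / (μ * ν) := by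
  have hμ := ht.trans_le h1
  have hν := ht.trans_le h2
  refine (Finset.sum_le_sum fun m _ => ent_one hμ hν (by positivity) x y).trans ?_
  rw [Finset.sum_add_distrib, ← Finset.sum_div, ← Finset.sum_div, ← Finset.sum_mul,
    ← Finset.sum_mul, Finset.sum_neg_distrib]
  have a := tel (lt_min hμ hν) ht (N + 1)
  obtain ⟨m, hm, b1, b2⟩ := ex_dy ht (le_max_of_le_left h1 : t ≤ max μ ν) (max_le h3 h4)
  have b := Finset.single_le_sum (f := fun m => t * 2 ^ m * (μ + ν) /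
    ((μ + t * 2 ^ m) * (ν + t * 2 ^ m))) (fun _ _ => by positivity) hm
  have c : 1 / 9 ≤ t * 2 ^ m * (μ + ν) / ((μ + t * 2 ^ m) * (ν + t * 2 ^ m)) := by
    have hs : 0 < t * 2 ^ m := by positivity
    generalize t * 2 ^ m = s at *
    have m1 := le_max_left μ ν
    have m2 := le_max_right μ ν
    have m3 : max μ ν ≤ μ + ν := max_le (by linarith) (by linarith)
    generalize max μ ν = b at *
    rw [div_le_div_iff₀ (by norm_num) (by positivity)]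
    have e1 : (μ + s) * (ν + s) ≤ 3 * b * (3 * b) :=
      mul_le_mul (by linarith) (by linarith) (by positivity) (by linarith)
    have e2 : b * b ≤ s * (μ + ν) := mul_le_mul b1 m3 (by linarith) hs.le
    linarith
  have d1 := mul_le_mul_of_nonneg_right (c.trans b) (sq_nonneg ‖x‖)
  have d2 := mul_le_mul_of_nonneg_right a (show 0 ≤ ‖y‖ ^ 2 / (μ * ν) by positivity)
  linarith

/-- twice the `(0,1)` part of the `k`-selfadjoint part of `D_h + θ + θ*` -/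
def sp (h k θ P : Mx n) : Mx n := ad h h θ + ad k k θ + k⁻¹ * P

/-- the test term -/
def tt (h k θ P : Mx n) (s : ℝ) : ℂ :=
  trace (θ * ((k + (s : ℂ) • h)⁻¹ * P * (k + (s : ℂ) • h)⁻¹ * h))

theorem dg_inv {μ : n → ℝ} (hμ : ∀ i, 0 < μ i) :
    (diagonal fun i => (μ i : ℂ))⁻¹ = diagonal fun i => ((μ i : ℂ))⁻¹ :=
  inv_eq_right_inv (by
    rw [diagonal_mul_diagonal, ← diagonal_one]
    exact congrArg _ (funext fun i => mul_inv_cancel₀ (ofReal_ne_zero.2 (hμ i).ne')))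

theorem key_diag {μ : n → ℝ} {t : ℝ} (ht : 0 < t) {N : ℕ} (h1 : ∀ i, t ≤ μ i)
    (h2 : ∀ i, μ i ≤ t * 2 ^ N) (θ P : Mx n) :
    ∑ m ∈ Finset.range (N + 1), t * 2 ^ m * (tt 1 (diagonal fun i => (μ i : ℂ)) θ P (t * 2 ^ m)).re ≤
      -nq 1 1 θ / 18 + nq (diagonal fun i => (μ i : ℂ)) (diagonal fun i => (μ i : ℂ))
        (sp 1 (diagonal fun i => (μ i : ℂ)) θ P) := by
  have hμ : ∀ i, 0 < μ i := fun i => ht.trans_le (h1 i)
  have hc : ∀ i, (μ i : ℂ) ≠ 0 := fun i => ofReal_ne_zero.2 (hμ i).ne'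
  set W := sp 1 (diagonal fun i => (μ i : ℂ)) θ P with hW
  have eP : ∀ i j, P j i = μ j * W j i - ((μ i + μ j : ℝ) : ℂ) * conj (θ i j) := fun i j => by
    simp only [hW, sp, ad, dg_inv hμ, inv_one, Matrix.one_mul, Matrix.mul_one, Matrix.add_apply,
      diagonal_mul, mul_diagonal, conjTranspose_apply, star_def]
    have := hc j
    push_cast
    field_simp
    ring
  have e1 : ∀ s : ℝ, 0 < s → s * (tt 1 (diagonal fun i => (μ i : ℂ)) θ P s).re =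
      ∑ i, ∑ j, s * (θ i j * P j i).re / ((μ i + s) * (μ j + s)) := fun s hs => by
    have : (diagonal fun i => (μ i : ℂ)) + (s : ℂ) • (1 : Mx n) =
        diagonal fun i => ((μ i + s : ℝ) : ℂ) := by
      rw [← diagonal_one, ← diagonal_smul, diagonal_add]
      congr 1
      funext i
      simp
    rw [tt, this, dg_inv fun i => add_pos (hμ i) hs, Matrix.mul_one]
    simp only [trace, diag_apply, Matrix.mul_apply (M := θ), diagonal_mul, mul_diagonal, re_sum,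
      Finset.mul_sum]
    refine Finset.sum_congr rfl fun i _ => Finset.sum_congr rfl fun j _ => ?_
    rw [show θ i j * (((μ j + s : ℝ) : ℂ)⁻¹ * P j i * ((μ i + s : ℝ) : ℂ)⁻¹) =
      ((((μ i + s) * (μ j + s))⁻¹ : ℝ) : ℂ) * (θ i j * P j i) by push_cast; rw [mul_inv]; ring,
      re_ofReal_mul]
    ring
  have e2 : nq (diagonal fun i => (μ i : ℂ)) (diagonal fun i => (μ i : ℂ)) W =
      ∑ i, ∑ j, ‖μ j * W j i‖ ^ 2 / (μ i * μ j) := by
    simp only [nq, ad, dg_inv hμ, trace, diag_apply, re_sum]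
    refine Finset.sum_congr rfl fun i _ => ?_
    rw [Matrix.mul_apply, re_sum]
    refine Finset.sum_congr rfl fun j _ => ?_
    rw [mul_diagonal, diagonal_mul, conjTranspose_apply, star_def,
      show (μ i : ℂ)⁻¹ * conj (W j i) * μ j * W j i =
        (((μ i)⁻¹ * μ j : ℝ) : ℂ) * (conj (W j i) * W j i) by push_cast; ring, conj_mul',
      ← ofReal_pow, ← ofReal_mul, ofReal_re, norm_mul, norm_real, Real.norm_of_nonneg (hμ j).le]
    have := hμ i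
    have := hμ j
    field_simp
  have e3 : nq 1 1 θ = ∑ i, ∑ j, ‖θ i j‖ ^ 2 := by
    rw [nq, ad, inv_one, Matrix.one_mul, Matrix.mul_one, tr_fs, ofReal_re, fs]
  rw [Finset.sum_congr rfl fun m _ => e1 _ (by positivity), e2, e3, Finset.sum_comm,
    ← Finset.sum_neg_distrib, Finset.sum_div, ← Finset.sum_add_distrib]
  refine Finset.sum_le_sum fun i _ => ?_
  rw [Finset.sum_comm, ← Finset.sum_neg_distrib, Finset.sum_div, ← Finset.sum_add_distrib]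
  refine Finset.sum_le_sum fun j _ => ?_
  rw [eP]
  exact ent_sum ht (h1 i) (h1 j) (h2 i) (h2 j) _ _

theorem tt_frame {T : Mx n} (hT : T.det ≠ 0) (h k θ P : Mx n) (s : ℝ) :
    tt (Tᴴ * h * T) (Tᴴ * k * T) (T⁻¹ * θ * T) (Tᴴ * P * T) s = tt h k θ P s := by
  have e : Tᴴ * k * T + (s : ℂ) • (Tᴴ * h * T) = Tᴴ * (k + (s : ℂ) • h) * T := by
    simp only [Matrix.mul_add, Matrix.add_mul, Matrix.mul_smul, Matrix.smul_mul]
  rw [tt, tt, e, Matrix.mul_inv_rev, Matrix.mul_inv_rev, Matrix.mul_assoc T⁻¹, Matrix.mul_assoc T⁻¹,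
    trace_mul_comm]
  simp only [Matrix.mul_assoc, mul_nonsing_inv_cancel_left _ _ hT.isUnit,
    nonsing_inv_mul_cancel_left _ _ (ct_det hT), mul_nonsing_inv _ hT.isUnit, Matrix.mul_one]

theorem sp_frame {T : Mx n} (hT : T.det ≠ 0) (h k θ P : Mx n) :
    sp (Tᴴ * h * T) (Tᴴ * k * T) (T⁻¹ * θ * T) (Tᴴ * P * T) = T⁻¹ * sp h k θ P * T := by
  rw [sp, sp, ad_frame hT hT, ad_frame hT hT, Matrix.mul_inv_rev, Matrix.mul_inv_rev]
  simp only [Matrix.mul_add, Matrix.add_mul, Matrix.mul_assoc,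
    nonsing_inv_mul_cancel_left _ _ (ct_det hT)]

theorem tr_frame {T : Mx n} (hT : T.det ≠ 0) (h k : Mx n) :
    trace ((Tᴴ * h * T)⁻¹ * (Tᴴ * k * T)) = trace (h⁻¹ * k) := by
  rw [Matrix.mul_inv_rev, Matrix.mul_inv_rev, Matrix.mul_assoc T⁻¹, trace_mul_comm]
  simp only [Matrix.mul_assoc, nonsing_inv_mul_cancel_left _ _ (ct_det hT),
    mul_nonsing_inv _ hT.isUnit, Matrix.mul_one]

/-- the pointwise inequality -/
theorem key_pt {h k : Mx n} (hh : h.PosDef) (hk : k.PosDef) {B : ℝ} {N : ℕ} (hB : 0 < B)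
    (hN : B ≤ B⁻¹ * 2 ^ N) (b1 : (trace (h⁻¹ * k)).re ≤ B) (b2 : (trace (k⁻¹ * h)).re ≤ B)
    (θ P : Mx n) : ∑ m ∈ Finset.range (N + 1), B⁻¹ * 2 ^ m * (tt h k θ P (B⁻¹ * 2 ^ m)).re ≤
      -nq h h θ / 18 + nq k k (sp h k θ P) := by
  obtain ⟨T, μ, hT, hμ, rfl, rfl⟩ := ex_diag hh hk
  obtain ⟨x, rfl⟩ : ∃ x, θ = T⁻¹ * x * T := ⟨T * θ * T⁻¹, by
    simp only [Matrix.mul_assoc, nonsing_inv_mul _ hT.isUnit, Matrix.mul_one,
      nonsing_inv_mul_cancel_left _ _ hT.isUnit]⟩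
  obtain ⟨p, rfl⟩ : ∃ p, P = Tᴴ * p * T := ⟨Tᴴ⁻¹ * P * T⁻¹, by
    simp only [Matrix.mul_assoc, nonsing_inv_mul _ hT.isUnit, Matrix.mul_one,
      mul_nonsing_inv_cancel_left _ _ (ct_det hT)]⟩
  simp only [tt_frame hT, sp_frame hT, nq_frame hT hT]
  rw [tr_frame hT, inv_one, Matrix.one_mul, trace_diagonal, re_sum] at b1
  rw [tr_frame hT, Matrix.mul_one, dg_inv hμ, trace_diagonal, re_sum] at b2
  simp only [← ofReal_inv, ofReal_re] at b1 b2
  refine key_diag (inv_pos.2 hB) (fun i => ?_) (fun i => le_trans ?_ hN) x p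
  · rw [inv_le_comm₀ hB (hμ i)]
    exact (Finset.single_le_sum (f := fun i => (μ i)⁻¹) (fun j _ => (inv_pos.2 (hμ j)).le)
      (Finset.mem_univ i)).trans b2
  · exact (Finset.single_le_sum (fun j _ => (hμ j).le) (Finset.mem_univ i)).trans b1

end Vale.Agent.P275NU
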