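import Vale.Agent.P275NU.Props

/-!
P275 (helper85), block NU: the analytic blocks of the proof.
-/

set_option linter.all false

open scoped Topology ContDiff
open Filter Set
open Vale.Agent.P275NA (Fm Cy Mn)
open Vale.Agent.P275GC Vale.Agent.P275MO
open Vale.Agent.P275Z (tauX)

noncomputable section

namespace Vale.Agent.P275NU

variable {C : Type} [TopologicalSpace C] (A : At C) (n : ℕ) (l : Cy A ℂ)

/-- the connection of a stable Higgs bundle is stable -/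
def MK : Prop := ∀ (y : Mod A l (tauX n)) (r : ℝ) (h1 : 1 < r) (h2 : r ≤ A.R) (g : Cy A (Mn n))
  (a h G : Fm A (Mn n)) (z' : Dat C A.N n), y.lam = 0 → z'.x = y.x → Cl y r h1 h2 g a →
  Rel (A.res r h1 h2) z'.lam g a h G z'.g z'.a → Good (A.res r h1 h2) l z' → z'.R = 0 →
  IsOb A l (tauX n).q z'

/-- continuity of the section, along a subsequence -/
def CONT : Prop := ∀ (lams : ℕ → ℂ) (lam : ℂ) (ys : ℕ → Mod A l (tauX n)) (y : Mod A l (tauX n)),
  (∀ k, (ys k).lam = 0) → Tendsto lams atTop (𝓝 lam) → Tendsto ys atTop (𝓝 y) →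
  ∃ (σ : ℕ → ℕ) (zs : ℕ → Mod A l (tauX n)) (z : Mod A l (tauX n)), StrictMono σ ∧
    (∀ k, (zs k).lam = lams (σ k) ∧ NuR (ys (σ k)) (zs k)) ∧ z.lam = lam ∧ NuR y z ∧
    Tendsto zs atTop (𝓝 z)

/-- properness of the nonabelian Hodge map -/
def PRP : Prop := ∀ (ys ys' : ℕ → Mod A l (tauX n)) (y' : Mod A l (tauX n)),
  (∀ k, (ys' k).lam = 1 ∧ NuR (ys k) (ys' k)) → Tendsto ys' atTop (𝓝 y') →
  ∃ (σ : ℕ → ℕ) (y₀ : Mod A l (tauX n)), StrictMono σ ∧ Tendsto (ys ∘ σ) atTop (𝓝 y₀)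

end Vale.Agent.P275NU
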