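import Vale.Agent.P275NU.Rel
import Vale.Agent.P275NU.Blk
import Vale.Agent.P275AD.Gau
import Vale.Agent.P275KR.Noi
import Vale.Agent.P275KR.Frm
import Vale.Agent.P275HK.Inj
import Vale.Agent.P275NA.Main

/-!
P275 (helper85), block NU: the relation on the moduli space.
-/

set_option linter.all false

open scoped Matrix.Norms.Operator Topology ContDiff
open Filter Set Matrix Metric
open Vale.Agent.P281Z.Hm (an_mul an_inv)
open Vale.Agent.P275NA (Fm Cy Mn hk HE Tw ec)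
open Vale.Agent.P275GC Vale.Agent.P275GC.At Vale.Agent.P275MO
open Vale.Agent.P275AD (Agr eq_of_ev ev_off ev_O)
open Vale.Agent.P275Z (tauX)

noncomputable section

namespace Vale.Agent.P275NU

variable {C : Type} [TopologicalSpace C] [T2Space C] {A : At C} {n : ℕ} {l : Cy A ℂ} {z z' : Dat C A.N n}
  {g g' : Cy A (Mn n)} {a a' h G φ : Fm A (Mn n)} {r r' : ℝ} {h1 : 1 < r} {h2 : r ≤ A.R}
  {y y' y₁ y₂ : Mod A l (tauX n)} {d : ℤ}

theorem cder {f : ℂ → Mn n} {w : ℂ} (hf : AnalyticAt ℂ f w) (c : ℂ) :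
    ContinuousAt (fun y => c • deriv f y) w :=
  have : ContinuousAt (fun y => deriv f y) w := hf.deriv.continuousAt
  this.fun_const_smul c

theorem con_of_good (c : Good A l z) (ha : A.Hl a) (e : Agr A z a) : Con A l z.lam z.g a := by
  have hl := P275KR.cc_l c
  refine ⟨c.cc, c.det, ha, fun i w b => e.trace ha c b, fun i j w b => ⟨_, eq_of_ev
    (f := fun y => a i y * z.g i j y + z.lam • deriv (z.g i j) y)
    (g := fun y => A.d i j y • (z.g i j y * a j (A.tr i j y)) +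
      ((n : ℂ)⁻¹ * (z.lam * (deriv (l i j) y / l i j y))) • z.g i j y) ?_ ?_ ?_⟩⟩
  · exact (an_mul (ha.an b.1 i) (c.cc.an b)).continuousAt.add
      (cder (c.cc.an b) _)
  · exact ((an_d b).smul (an_mul (c.cc.an b) ((ha.an (tr_ball b) j).comp (an_tr b)))).continuousAt.add
      ((continuousAt_const.mul (continuousAt_const.mul ((hl.an b).deriv.continuousAt.div
        (hl.an b).continuousAt (hl.ne b)))).smul (c.cc.an b).continuousAt)
  · filter_upwards [ev_off (i := i) z.x b.1, ev_O b] with y e1 e2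
    rw [e i y e1, e j _ (P275MB.off_tr e2 e1.2)]
    exact P275MB.Good.law' c e2 e1.2

theorem R_zero (z : Ob A l (tauX n)) : z.1.R = 0 := z.2.2

/-- every good representative gives a class -/
theorem exists_cl (z : Ob A l (tauX n)) (c : Good (A.res r h1 h2) l z.1) :
    ∃ a, Cl z.pt r h1 h2 z.1.g a := by
  obtain ⟨a, ha, e⟩ := P275AD.exists_agr c (R_zero z)
  exact ⟨a, con_of_good c ha e, z, rfl, c, rfl, fun i w b => (e i w b).symm⟩

theorem cl_dat {lam : ℂ} {x : C} {σ : Fin A.N → Mn n} (c : Con (A.res r h1 h2) l lam g a)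
    (o : IsOb A l (tauX n).q (dat A lam x g a σ)) (b : Good (A.res r h1 h2) l (dat A lam x g a σ)) :
    Cl (Ob.pt ⟨_, o⟩) r h1 h2 g a := ⟨c, ⟨_, o⟩, rfl, b, rfl, fun _ _ _ => rfl⟩

theorem Cl.mono (c : Cl y r h1 h2 g a) (h1' : 1 < r') (h3 : r' ≤ r) :
    Cl y r' h1' (h3.trans h2) g a := by
  obtain ⟨c, z, e1, e2, e3, e4⟩ := c
  exact ⟨c.mono h1' h3, z, e1, P275MB.Good.mono e2 h1' h3, e3,
    fun i w b => e4 i w ⟨ball_subset_ball h3 b.1, b.2⟩⟩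

theorem ch_of_hom (f : Hom A z z' φ) (ha : A.Hl a) (ha' : A.Hl a')
    (e : ∀ i, ∀ w ∈ off A z.x i, z.a i w = a i w) (e' : ∀ i, ∀ w ∈ off A z'.x i, z'.a i w = a' i w)
    (d : ∀ i, ∀ w ∈ ball (0 : ℂ) A.R, (φ i w).det ≠ 0) : CH A z.lam z.g a z'.g a' φ := by
  refine ⟨f.hol, f.law, fun i w b => eq_of_ev
    (f := fun y => z.lam • deriv (φ i) y + a' i y * φ i y) (g := fun y => φ i y * a i y)
    ((cder (f.hol.an b i) _).add
      (an_mul (ha'.an b i) (f.hol.an b i)).continuousAt)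
    (an_mul (f.hol.an b i) (ha.an b i)).continuousAt ?_, d⟩
  filter_upwards [ev_off (i := i) z.x b] with y q
  rw [← e i y q, ← e' i y (f.x ▸ q)]
  exact f.con i y q

theorem CH.mo (f : CH A z.lam z.g a z'.g a' φ) (el : z'.lam = z.lam) (ex : z'.x = z.x)
    (e : ∀ i, ∀ w ∈ off A z.x i, z.a i w = a i w) (e' : ∀ i, ∀ w ∈ off A z'.x i, z'.a i w = a' i w) :
    Hom A z z' φ := ⟨el, ex, f.hol, f.law, fun i w b => by
      rw [e i w b, e' i w (ex ▸ b)]; exact f.con i w b.1⟩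

/-- two representatives of a class are isomorphic -/
theorem Cl.iso (c : Cl y r h1 h2 g a) (c' : Cl y r h1 h2 g' a') :
    ∃ φ, CH (A.res r h1 h2) y.lam g a g' a' φ := by
  obtain ⟨c, z, rfl, e2, rfl, e4⟩ := c
  obtain ⟨c', z', e1', e2', rfl, e4'⟩ := c'
  obtain ⟨φ, h, -, f⟩ := (P275MB.pt_eq_iff' e2 e2').1 e1'.symm
  exact ⟨φ, ch_of_hom f.toHom c.hol c'.hol e4 e4' f.det⟩

theorem Cl.eq (c : Cl y r h1 h2 g a) (c' : Cl y' r h1 h2 g' a') (el : y'.lam = y.lam)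
    (ex : y'.x = y.x) (f : CH (A.res r h1 h2) y.lam g a g' a' φ) : y = y' := by
  obtain ⟨c, z, rfl, e2, rfl, e4⟩ := c
  obtain ⟨c', z', rfl, e2', rfl, e4'⟩ := c'
  obtain ⟨i, hx, -⟩ := (A.res r h1 h2).cov z.1.x
  exact (P275MB.pt_eq_iff' e2 e2').2 ⟨φ, _, Algebra.mem_top, P275MB.Hom.isoBy e2 e2'
    (CH.mo (A := A.res r h1 h2) (z := z.1) (z' := z'.1) f el ex e4 e4') f.ne hx⟩

theorem Cl.stab (c : Cl y r h1 h2 g a) (h0 : y.lam = 0) :
    P275NA.Stab (A.res r h1 h2) g a := by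
  obtain ⟨c, z, rfl, e2, rfl, e4⟩ := c
  exact (Agr.stab_iff (fun i w b => (e4 i w b).symm) c.hol e2 (P275KR.cc_l e2) h0).1
    (P275MB.IsOb.stab z.2 e2)

theorem Cl.con0 (c : Cl y r h1 h2 g a) (h0 : y.lam = 0) : Con (A.res r h1 h2) l 0 g a := h0 ▸ c.1

theorem tw_one (A : At C) : Tw A A.d fun _ _ => 1 :=
  ⟨A.cc_d, fun _ => contDiffOn_const, fun _ _ _ => one_pos, fun _ _ _ _ => by simp⟩

theorem sa_one (a : Fm A (Mn n)) : P275NA.sa A (fun _ _ => 1) a = a := by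
  funext i w; simp [P275NA.sa]

theorem pf_of_he (hn : 0 < n) {c : ℝ} (e : HE A (fun _ _ => 1) a h c) : PF A a h := fun i w b => by
  have := e i w b
  rw [P275NA.HK, sa_one] at this
  rw [this, tf_one hn]

/-- harmonic metrics exist -/
theorem Cl.met [ConnectedSpace C] (hn : 0 < n) (c : Cl y r h1 h2 g a) (h0 : y.lam = 0) :
    ∃ h, (A.res r h1 h2).MtM ∞ g h ∧ PF (A.res r h1 h2) a h := by
  obtain ⟨h, H, e⟩ := P275NA.ex_ok (A.res r h1 h2) n _ _ g a hn (tw_one _) ((c.con0 h0).hig hn)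
    (c.stab h0)
  exact ⟨h, H, pf_of_he hn e⟩

theorem Rel.ch0 (c : Rel A 0 g a h G g' a') : CH A 0 g' a' g a G :=
  ⟨hl_of_db (c.sm.of_le one_le) fun i w b => by simpa using c.db i w b,
    fun i j w b => (c.tr i j w b).symm, fun i w b => by simpa using c.dz i w b, c.ne⟩

theorem Rel.good {lam : ℂ} (f : Rel A lam z.g a h G g' a') (k : Con A l lam g' a') (c : Good A l z) :
    Good A l (dat A lam z.x g' a' fun i => (G i (A.e i z.x))⁻¹ * z.σ i) := by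
  refine good_of_con k (fun i q => ?_) fun i j p q => ?_
  · rw [Matrix.det_mul]
    exact mul_ne_zero (isUnit_nonsing_inv_det _ (f.ne i _ (map_src q)).isUnit).ne_zero (c.fr i q)
  · have t : A.tr i j (A.e i z.x) = A.e j z.x := congrArg _ ((A.e i).left_inv p)
    have e := f.tr i j _ ⟨map_src p, show (A.e i).symm _ ∈ _ by rwa [(A.e i).left_inv p]⟩
    rw [t] at e
    rw [c.frc i j p q, ← mul_nonsing_inv_cancel_right _ (z.g i j _) (f.ne j _ (map_src q)).isUnit, e]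
    simp only [Matrix.mul_assoc, nonsing_inv_mul_cancel_left _ _ (f.ne i _ (map_src p)).isUnit]

theorem mk (S : Std A l n d) : MK A n l := by
  intro y r h1 h2 g a h G z' h0 ex c f b hR
  have := S.conn
  refine ⟨⟨r, h1, h2, b, ?_⟩, hR⟩
  rcases eq_or_ne z'.lam 0 with e | e
  · obtain ⟨-, z, rfl, e2, rfl, e4⟩ := c
    have f0 := (e ▸ f).ch0
    rw [← e] at f0
    exact P275MB.Stab.iso b e2 (CH.mo (A := A.res r h1 h2) (z := z') (z' := z.1) f0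
      (h0.trans e.symm) ex.symm (fun _ _ _ => rfl) e4) f0.ne (P275MB.IsOb.stab z.2 e2)
  · intro k T k0 kn s v
    have q := P275KR.noi (A.res r h1 h2) n l z' k T b e hR s v
    obtain ⟨m, hm⟩ := P275KR.degS_int' b.cc s
    rw [hm, res_deg, S.deg] at q
    have q' : (n : ℤ) * m = k * d := by exact_mod_cast q
    exact absurd (Int.le_of_dvd (by exact_mod_cast k0) (S.cop.dvd_of_dvd_mul_right ⟨m, q'.symm⟩))
      (by exact_mod_cast kn.not_ge)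

/-- the data of the relation on smaller discs -/
theorem NuR.ex2 {y₁' y₂' : Mod A l (tauX n)} (c₁ : NuR y₁ y₁') (c₂ : NuR y₂ y₂') :
    ∃ (r : ℝ) (h1 : 1 < r) (h2 : r ≤ A.R) (g₁ g₁' g₂ g₂' : Cy A (Mn n))
      (a₁ h₁ G₁ a₁' a₂ h₂ G₂ a₂' : Fm A (Mn n)),
      (Cl y₁ r h1 h2 g₁ a₁ ∧ Cl y₁' r h1 h2 g₁' a₁' ∧ (A.res r h1 h2).MtM ∞ g₁ h₁ ∧
        PF (A.res r h1 h2) a₁ h₁ ∧ Rel (A.res r h1 h2) y₁'.lam g₁ a₁ h₁ G₁ g₁' a₁') ∧
      Cl y₂ r h1 h2 g₂ a₂ ∧ Cl y₂' r h1 h2 g₂' a₂' ∧ (A.res r h1 h2).MtM ∞ g₂ h₂ ∧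
        PF (A.res r h1 h2) a₂ h₂ ∧ Rel (A.res r h1 h2) y₂'.lam g₂ a₂ h₂ G₂ g₂' a₂' := by
  obtain ⟨-, -, r, p, q, g₁, g₁', a₁, h₁, G₁, a₁', b1, b2, b3, b4, b5⟩ := c₁
  obtain ⟨-, -, s, p', q', g₂, g₂', a₂, h₂, G₂, a₂', c1, c2, c3, c4, c5⟩ := c₂
  have m := lt_min p p'
  have u := min_le_left r s
  have v := min_le_right r s
  exact ⟨_, m, u.trans q, g₁, g₁', g₂, g₂', a₁, h₁, G₁, a₁', a₂, h₂, G₂, a₂',
    ⟨b1.mono m u, b2.mono m u, mtm_mono b3 m u, b4.mono m u, b5.mono m u⟩,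
    c1.mono m v, c2.mono m v, mtm_mono c3 m v, c4.mono m v, c5.mono m v⟩

theorem nur_uniq (hn : 0 < n) (c₁ : NuR y y₁) (c₂ : NuR y y₂) (e : y₂.lam = y₁.lam) :
    y₁ = y₂ := by
  obtain ⟨r, h1, h2, g₁, g₁', g₂, g₂', a₁, h₁, G₁, a₁', a₂, h₂, G₂, a₂', ⟨b1, b2, b3, b4, b5⟩,
    c1, c2, c3, c4, c5⟩ := c₁.ex2 c₂
  obtain ⟨φ, f⟩ := b1.iso c1
  rw [c₁.1] at f
  exact b2.eq c2 e (c₂.2.1.trans c₁.2.1.symm) (b5.ch (e ▸ c5) f fun _ =>
    P275HK.par (A.res r h1 h2) n l g₁ g₂ a₁ h₁ a₂ h₂ φ hn (b1.con0 c₁.1) (c1.con0 c₁.1) b3 c3 b4 c4 f.hom)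

theorem nur_inj (hn : 0 < n) (c₁ : NuR y₁ y') (c₂ : NuR y₂ y') (e : y'.lam ≠ 0) :
    y₁ = y₂ := by
  obtain ⟨r, h1, h2, g₁, g₁', g₂, g₂', a₁, h₁, G₁, a₁', a₂, h₂, G₂, a₂', ⟨b1, b2, b3, b4, b5⟩,
    c1, c2, c3, c4, c5⟩ := c₁.ex2 c₂
  obtain ⟨ψ, f⟩ := b2.iso c2
  have c6 := c5.comp f
  refine b1.eq c1 (c₂.1.trans c₁.1.symm) (c₂.2.1.symm.trans c₁.2.1) (c₁.1 ▸ ch_of
    (P275HK.inj (A.res r h1 h2) n l _ g₁ g₂ g₁' a₁ h₁ G₁ a₂ h₂ _ a₁' hn e (b1.con0 c₁.1) (c1.con0 c₂.1) b3 c3 b5 c6)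
    fun i w q => ?_)
  rw [Matrix.det_mul]
  exact mul_ne_zero (c6.ne i w q) (isUnit_nonsing_inv_det _ (b5.ne i w q).isUnit).ne_zero

theorem nur_zero (hn : 0 < n) (c : NuR y y') (e : y'.lam = 0) : y' = y := by
  obtain ⟨p, q, r, h1, h2, g, g', a, h, G, a', b1, b2, b3, b4, b5⟩ := id c
  exact nur_uniq hn c ⟨p, rfl, r, h1, h2, g, g, a, h, _, a, b1, b1, b3, b4, p ▸ rel_zero (A := A.res r h1 h2) g a h⟩
    (p.trans e.symm)

/-- the connection of a class, on smaller discs -/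
theorem Cl.nur (S : Std A l n d) (c : Cl y r h1 h2 g a) (h0 : y.lam = 0)
    (H : (A.res r h1 h2).MtM ∞ g h) (pf : PF (A.res r h1 h2) a h) (lam : ℂ) (h1' : 1 < r')
    (h3 : r' < r) : ∃ (y' : Mod A l (tauX n)) (g' : Cy A (Mn n)) (G a' : Fm A (Mn n)),
      y'.lam = lam ∧ NuR y y' ∧ Cl y' r' h1' (h3.le.trans h2) g' a' ∧
        Rel (A.res r' h1' (h3.le.trans h2)) lam g a h G g' a' := by
  have hn : 0 < n := two_pos.trans_le S.two
  obtain ⟨G, dG, f⟩ := ex_rel (c.con0 h0) H lam h1' h3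
  have f' : Rel (A.res r' h1' (h3.le.trans h2)) lam g a h G _ _ :=
    (P275MB.rr h1' h3.le fun E => Rel (E.at h1') lam g a h G (P275NA.fc (A.res r h1 h2) G g)
      (na lam a h G)).1 f
  have c' := c.mono h1' h3.le
  have H' := mtm_mono H h1' h3.le
  have pf' := pf.mono h1' h3.le
  have k := f'.con hn (c'.con0 h0) H' pf' dG
  obtain ⟨-, z, rfl, e2, rfl, -⟩ := id c'
  have b := f'.good k e2
  have o := mk S _ r' h1' _ _ a h G (dat _ lam z.1.x _ _ _) h0 rfl c' f' b rfl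
  exact ⟨Ob.pt ⟨_, o⟩, _, G, _, rfl, ⟨h0, rfl, r', h1', _, _, _, a, h, G, _, c', cl_dat k o b, H', pf', f'⟩,
    cl_dat k o b, f'⟩

theorem ex_nur (S : Std A l n d) (y : Mod A l (tauX n)) (h0 : y.lam = 0) (lam : ℂ) :
    ∃ y' : Mod A l (tauX n), y'.lam = lam ∧ NuR y y' := by
  have := S.conn
  obtain ⟨z, rfl⟩ := pt_surj y
  obtain ⟨r, h1, h2, b⟩ := P275MB.Ob.ex z
  obtain ⟨a, c⟩ := exists_cl z b
  obtain ⟨h, H, pf⟩ := c.met (two_pos.trans_le S.two) h0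
  obtain ⟨s, p, q⟩ := exists_between h1
  obtain ⟨y', -, -, -, e, f, -⟩ := c.nur S h0 H pf lam p q
  exact ⟨y', e, f⟩

end Vale.Agent.P275NU
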