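import Vale.Agent.P275NU.Alg
import Vale.Agent.P275NA.Tr
import Vale.Agent.P275GC.St
import Vale.Agent.P275HK.Max
import Vale.Agent.P275MO.Props
import Vale.Agent.P284Z.Z.Mean

/-!
P275 (helper85), block NU: the energy bound.
-/

set_option linter.all false

open scoped Matrix.Norms.Operator Topology ComplexOrder ComplexConjugate ContDiff
open Filter Set Matrix Complex Metric MeasureTheory
open Vale.Agent.P281Z.Hm
open Vale.Agent.P275NA Vale.Agent.P275HK Vale.Agent.P275GC Vale.Agent.P275GC.At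
open Vale.Agent.P275MO (tf)

noncomputable section

namespace Vale.Agent.P275NU

variable {n : ℕ} {z : ℂ}

theorem tf_add (X Y : Mn n) : tf (X + Y) = tf X + tf Y := by
  simp only [tf, trace_add, mul_add, add_smul]; abel

theorem tf_smul (c : ℂ) (X : Mn n) : tf (c • X) = c • tf X := by
  simp only [tf, trace_smul, smul_eq_mul, smul_sub, smul_smul, mul_left_comm]

theorem tf_one (hn : 0 < n) (c : ℂ) : tf (c • (1 : Mn n)) = 0 := by
  have : (n : ℂ) ≠ 0 := Nat.cast_ne_zero.2 hn.ne'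
  rw [tf, trace_smul, trace_one, Fintype.card_fin, smul_eq_mul, mul_comm c,
    inv_mul_cancel_left₀ this, sub_self]

theorem tr_tf (hn : 0 < n) (X : Mn n) : trace (tf X) = 0 := by
  have : (n : ℂ) ≠ 0 := Nat.cast_ne_zero.2 hn.ne'
  rw [tf, trace_sub, trace_smul, trace_one, Fintype.card_fin, smul_eq_mul, mul_comm,
    mul_inv_cancel_left₀ this, sub_self]

theorem tf_of {X : Mn n} (h : trace X = 0) : tf X = X := by
  rw [tf, h, mul_zero, zero_smul, sub_zero]

theorem tf_conj {P : Mn n} (hP : P.det ≠ 0) (X : Mn n) : tf (P * X * P⁻¹) = P * tf X * P⁻¹ := by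
  rw [tf, tf, trace_mul_comm, nonsing_inv_mul_cancel_left _ _ hP.isUnit, Matrix.mul_sub,
    Matrix.sub_mul, Matrix.mul_smul, Matrix.smul_mul, Matrix.mul_one, mul_nonsing_inv _ hP.isUnit]

theorem cont_tf : Continuous (tf : Mn n → Mn n) :=
  continuous_id.sub ((continuous_const.mul continuous_id.matrix_trace).smul continuous_const)

/-- the derivative of `h⁻¹ k`, times `h` -/
def pp (h k : ℂ → Mn n) (z : ℂ) : Mn n := db h z * (h z)⁻¹ * k z - db k z

theorem pd_add {h k : Mn n} (hh : h.PosDef) (hk : k.PosDef) {s : ℝ} (hs : 0 < s) :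
    (k + (s : ℂ) • h).PosDef := hk.add (hh.smul (by exact_mod_cast hs))

theorem db_test {a h k : ℂ → Mn n} (ha : AnalyticAt ℂ a z) (hh : DifferentiableAt ℝ h z)
    (hk : DifferentiableAt ℝ k z) (ph : (h z).PosDef) (pk : (k z).PosDef) {s : ℝ} (hs : 0 < s) :
    db (fun x => trace (a x * ((k x + (s : ℂ) • h x)⁻¹ * h x))) z =
      tt (h z) (k z) (a z) (pp h k z) s := by
  have dm : DifferentiableAt ℝ (fun x => k x + (s : ℂ) • h x) z := hk.fun_add (df_msmul _ hh)
  have m0 := pd_ne (pd_add ph pk hs)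
  have di := df_inv dm m0
  rw [db, wb_trace (df_mul (hol_df ha) (df_mul di hh)), wb_mul (hol_df ha) (df_mul di hh),
    wb_hol ha.differentiableAt, Matrix.zero_mul, zero_add, wb_mul di hh, wb_minv dm m0,
    wb_add hk (df_msmul _ hh), wb_msmul _ hh, tt, pp]
  congr 2
  have e : db h z * (h z)⁻¹ * k z = db h z * (h z)⁻¹ * (k z + (s : ℂ) • h z) - (s : ℂ) • db h z := by
    rw [Matrix.mul_add, Matrix.mul_smul, Matrix.mul_assoc _ _ (h z), nonsing_inv_mul _ (pd_det ph),
      Matrix.mul_one, add_sub_cancel_right]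
  rw [e]
  generalize k z + (s : ℂ) • h z = m at *
  simp only [Matrix.mul_sub, Matrix.sub_mul, Matrix.mul_add, Matrix.add_mul, Matrix.neg_mul,
    Matrix.mul_assoc, mul_nonsing_inv_cancel_left _ _ m0.isUnit, nonsing_inv_mul _ (pd_det ph),
    Matrix.mul_one, db]
  abel

variable {C : Type} [TopologicalSpace C] {A : At C} {i j : Fin A.N} {g g' : Cy A (Mn n)}
  {a a' h k : Fm A (Mn n)} {N : WithTop ℕ∞}

theorem hig_tr (ha : Hig A A.d g a) (hz : z ∈ A.O i j) :
    a i z = A.d i j z • (g i j z * a j (A.tr i j z) * (g i j z)⁻¹) := by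
  rw [← Matrix.smul_mul, ← ha.tr i j z hz, mul_nonsing_inv_cancel_right _ _ (dne ha.cc hz).isUnit]

theorem mtm_add (H : A.MtM N g h) (K : A.MtM N g k) {s : ℝ} (hs : 0 < s) :
    A.MtM N g fun i z => k i z + (s : ℂ) • h i z where
  sm i z hz := ((K.sm.at hz i).add (cd_csmul _ (H.sm.at hz i))).contDiffWithinAt
  pos i z hz := pd_add (H.pos i z hz) (K.pos i z hz) hs
  tr i j z hz := by
    simp only [H.tr i j z hz, K.tr i j z hz, Matrix.mul_add, Matrix.add_mul, Matrix.mul_smul,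
      Matrix.smul_mul]

theorem ct_of {F : Type} [NormedAddCommGroup F] [NormedSpace ℝ F] {u : Fm A F}
    (hu : ∀ i, ∀ z ∈ ball (0 : ℂ) A.R, ContDiffAt ℝ 0 (u i) z) : A.Ct u :=
  fun i z hz => (hu i z hz).continuousAt.continuousWithinAt

theorem cd_pp (H : A.MtM 1 g h) (K : A.MtM 1 g k) (hz : z ∈ ball (0 : ℂ) A.R) (i : Fin A.N) :
    ContDiffAt ℝ 0 (pp (h i) (k i)) z :=
  (cd_mul (cd_mul (P275GC.cd_db (H.sm.at hz i) (by simp)) (cd_inv ((H.sm.at hz i).of_le zero_le_one)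
    (pd_ne (H.pos i z hz)))) ((K.sm.at hz i).of_le zero_le_one)).sub
    (P275GC.cd_db (K.sm.at hz i) (by simp))

theorem ct_nq (ha : A.Hl a) (H : A.MtM 1 g h) : A.Ct fun i z => nq (h i z) (h i z) (a i z) :=
  ct_of fun i z hz => P275HK.cd_nq ((H.sm.at hz i).of_le zero_le_one) (pd_ne (H.pos i z hz))
    ((H.sm.at hz i).of_le zero_le_one) (hol_cd (ha.an hz i))

theorem cd_sp (ha : A.Hl a) (H : A.MtM 1 g h) (K : A.MtM 1 g k) (hz : z ∈ ball (0 : ℂ) A.R)
    (i : Fin A.N) : ContDiffAt ℝ 0 (fun z => sp (h i z) (k i z) (a i z) (pp (h i) (k i) z)) z := by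
  have c1 := (H.sm.at hz i).of_le zero_le_one
  have c2 := (K.sm.at hz i).of_le zero_le_one
  have c3 : ContDiffAt ℝ 0 (a i) z := hol_cd (ha.an hz i)
  exact ((cd_ad c1 (pd_ne (H.pos i z hz)) c1 c3).add (cd_ad c2 (pd_ne (K.pos i z hz)) c2 c3)).add
    (cd_mul (cd_inv c2 (pd_ne (K.pos i z hz))) (cd_pp H K hz i))

variable [T2Space C]

theorem int_test (ha : Hig A A.d g a) (H : A.MtM 1 g h) (K : A.MtM 1 g k) {s : ℝ} (hs : 0 < s) :
    A.Ct (fun i z => (tt (h i z) (k i z) (a i z) (pp (h i) (k i) z) s).re) ∧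
      A.int (fun i z => (tt (h i z) (k i z) (a i z) (pp (h i) (k i) z) s).re) = 0 := by
  have M := mtm_add H K hs
  have sm : A.Sm 1 fun i x => trace (a i x * ((k i x + (s : ℂ) • h i x)⁻¹ * h i x)) :=
    fun i z hz => (cd_trace (cd_mul (hol_cd (ha.hol.an hz i)) (cd_mul (cd_inv (M.sm.at hz i)
      (pd_ne (M.pos i z hz))) (H.sm.at hz i)))).contDiffWithinAt
  have f : A.F10 fun i x => trace (a i x * ((k i x + (s : ℂ) • h i x)⁻¹ * h i x)) := by
    intro i j z hz
    have u := (dne ha.cc hz).isUnit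
    beta_reduce
    rw [rel_tr ha.cc M H hz, hig_tr ha hz, Matrix.smul_mul, trace_smul, Matrix.mul_assoc (g i j z),
      Matrix.mul_assoc (g i j z), trace_mul_comm]
    simp only [Matrix.mul_assoc, nonsing_inv_mul _ u, Matrix.mul_one,
      nonsing_inv_mul_cancel_left _ _ u]
  have e : ∀ i, ∀ z ∈ ball (0 : ℂ) A.R, db (fun x => trace (a i x *
      ((k i x + (s : ℂ) • h i x)⁻¹ * h i x))) z = tt (h i z) (k i z) (a i z) (pp (h i) (k i) z) s :=
    fun i z hz => db_test (ha.hol.an hz i) (H.sm.df one_ne_zero hz i) (K.sm.df one_ne_zero hz i)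
      (H.pos i z hz) (K.pos i z hz) hs
  have c : A.Ct fun i z => tt (h i z) (k i z) (a i z) (pp (h i) (k i) z) s :=
    fun i => ((sm.db (m := 0) (by simp)).ct i).congr fun z hz => (e i z hz).symm
  refine ⟨fun i => continuous_re.comp_continuousOn (c i), ?_⟩
  rw [int_re c.in, ← int_congr' e, f.int_db sm, zero_re]

/-- the energy of `h` against the energy of any other metric -/
theorem eng (ha : Hig A A.d g a) (H : A.MtM 1 g h) (K : A.MtM 1 g k) :
    A.int (fun i z => nq (h i z) (h i z) (a i z)) ≤ 18 * A.int fun i z =>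
      nq (k i z) (k i z) (sp (h i z) (k i z) (a i z) (pp (h i) (k i) z)) := by
  have c : ∀ {h k : Fm A (Mn n)}, A.MtM 1 g h → A.MtM 1 g k →
      A.Ct fun i z => (trace ((h i z)⁻¹ * k i z)).re := fun H K => ct_of fun i z hz =>
    P275HK.cd_re (cd_trace (cd_mul (cd_inv ((H.sm.at hz i).of_le zero_le_one)
      (pd_ne (H.pos i z hz))) ((K.sm.at hz i).of_le zero_le_one)))
  obtain ⟨B1, p1, b1⟩ := (c H K).bdd A.hR
  obtain ⟨B2, p2, b2⟩ := (c K H).bdd A.hR
  have hB : 0 < B1 + B2 + 1 := by positivity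
  obtain ⟨N, hN⟩ := pow_unbounded_of_one_lt ((B1 + B2 + 1) * (B1 + B2 + 1)) (one_lt_two (α := ℝ))
  have c1 := ct_nq ha.hol H
  have c2 : A.Ct fun i z => nq (k i z) (k i z) (sp (h i z) (k i z) (a i z) (pp (h i) (k i) z)) :=
    ct_of fun i z hz => P275HK.cd_nq ((K.sm.at hz i).of_le zero_le_one) (pd_ne (K.pos i z hz))
      ((K.sm.at hz i).of_le zero_le_one) (cd_sp ha.hol H K hz i)
  have t := fun m : ℕ => int_test ha H K (s := (B1 + B2 + 1)⁻¹ * 2 ^ m) (by positivity)
  have c3 : ∀ m : ℕ, A.Ct fun i z => (B1 + B2 + 1)⁻¹ * 2 ^ m *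
      (tt (h i z) (k i z) (a i z) (pp (h i) (k i) z) ((B1 + B2 + 1)⁻¹ * 2 ^ m)).re :=
    fun m i => continuousOn_const.mul ((t m).1 i)
  have c4 : A.Ct fun i z => -(18 : ℝ)⁻¹ * nq (h i z) (h i z) (a i z) :=
    fun i => continuousOn_const.mul (c1 i)
  have := int_mono (In.sum (Finset.range (N + 1)) fun m _ => (c3 m).in) (c4.in.add c2.in)
    fun i z hz => (key_pt (H.pos i z (mem_of_le hz.le)) (K.pos i z (mem_of_le hz.le)) hB
      (by rw [le_inv_mul_iff₀ hB]; exact hN.le)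
      (by linarith [(le_abs_self _).trans (b1 i z hz.le)])
      (by linarith [(le_abs_self _).trans (b2 i z hz.le)]) _ _).trans_eq (by ring)
  rw [int_sum _ fun m _ => (c3 m).in, int_add c4.in c2.in, int_mul,
    Finset.sum_eq_zero fun m _ => by rw [int_mul, (t m).2, mul_zero]] at this
  linarith

end Vale.Agent.P275NU
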