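import Vale.Agent.P275NP.Nu
import Vale.Agent.P275NC.Cont
import Vale.Agent.P275HN.Hsq

/-!
P275 (helper85), block NU: the closed form.
-/

open Vale.Agent.P275GC Vale.Agent.P275MO
open Vale.Agent.P275NA (Cy)

namespace Vale.Agent.P275NU

theorem nu_ok {C : Type} [TopologicalSpace C] {A : At C} {n : ℕ} {l : Cy A ℂ} {d : ℤ}
    (S : Std A l n d) (k : KUR n A l) : NU A n l :=
  P275NP.nu S k (P275NC.cont S k (P275NP.mk S)) (P275HN.hsq S)

end Vale.Agent.P275NU
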